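import Vale.Agent.P203.Cox0.Long
import Vale.Agent.P203.Defs

/-! P203, SPEC: the common interface between the algebra (ALG/MOD/FOLD-L2), the fold argument
(FOLD-L1, FOLD-Z) and the Morse induction (MORSE).

`KeySys M` is one object `G` of the derived category, seen through the top cohomology of
`a⁻¹ G`, for `a` in the Artin group:
`d n t a = ∑_i η_i dim H^n((a⁻¹G)_(t,i))`, `fr n r` = contribution of the framing vertices (outside
`S`) to the neighbours of `r`, i.e. `∑_{s framing} c_{rs} dim_η H^n(G_s)`. -/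

set_option linter.all false

namespace Vale.Agent.P203.Spec

open Vale.Agent.P203 Vale.Agent.P203.Cox

variable {S : Type} [Fintype S] [DecidableEq S] (M : CoxeterMatrix S)

/-- standard parabolic subgroup `A_U` of the Artin group (a subgroup of the BIG Artin group) -/
def AP (U : Finset S) : Subgroup (ArtinGroup M) := Subgroup.closure (artinGen M '' (U : Set S))

/-- positive monoid `A_U⁺` (a submonoid of the Artin group) -/
def PM (U : Finset S) : Submonoid (ArtinGroup M) := Submonoid.closure (artinGen M '' (U : Set S))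

/-- standard parabolic subgroup of the Coxeter group -/
def WP (U : Finset S) : Subgroup M.Group := Subgroup.closure (M.simple '' (U : Set S))

/-- adjacency in the Coxeter graph: `r ≠ s`, `m_rs ≠ 2` (`m_rs = ∞` is coded by `0`) -/
def Adj (r s : S) : Prop := r ≠ s ∧ M r s ≠ 2

/-- canonical positive lift of an element of the Coxeter group -/
noncomputable abbrev tl (w : M.Group) : ArtinGroup M := lift M (artinGen M) w

/-- raw data: dimension function and framing -/
structure KeyData where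
  /-- `d n t a`: (weighted) dimension of `H^n((a⁻¹G)_t)` -/
  d : ℤ → S → ArtinGroup M → ℝ
  /-- framing contribution at `r` in degree `n` -/
  fr : ℤ → S → ℝ

variable {M}

namespace KeyData

/-- `H^{>n}((a⁻¹G)_t) = 0` -/
def Van (K : KeyData M) (n : ℤ) (t : S) (a : ArtinGroup M) : Prop := ∀ m, n < m → K.d m t a = 0

/-- `a ∈ D`: everything on `U` is in degrees `≤ n` -/
def InD (K : KeyData M) (U : Finset S) (n : ℤ) (a : ArtinGroup M) : Prop :=
  ∀ r ∈ U, K.Van n r a

/-- the outside of `U` seen from `U` is in degrees `≤ n` (depends only on `a A_U`) -/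
def Ext (K : KeyData M) (U : Finset S) (n : ℤ) (a : ArtinGroup M) : Prop :=
  ∀ r ∈ U, (∀ s, s ∉ U → Adj M r s → K.Van n s a) ∧ ∀ m, n < m → K.fr m r = 0

/-- external weight at `r ∈ U` -/
noncomputable def wext (K : KeyData M) (U : Finset S) (n : ℤ) (a : ArtinGroup M) (r : S) : ℝ :=
  K.fr n r + ∑ s ∈ Uᶜ, (- gram M r s) * K.d n s a

/-- slack at `r ∈ U` of the thresholds `ρ`: `w_r - (B_U ρ)_r` -/
noncomputable def slack (K : KeyData M) (U : Finset S) (n : ℤ) (ρ : S → ℝ)
    (a : ArtinGroup M) (r : S) : ℝ :=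
  K.wext U n a r - ∑ t ∈ U, gram M r t * ρ t

/-- the vertex `a A_{U-t}` of type `t` is negative -/
def Neg (K : KeyData M) (n : ℤ) (ρ : S → ℝ) (t : S) (a : ArtinGroup M) : Prop :=
  K.Van n t a ∧ K.d n t a < ρ t

/-- the vertex `a A_{U-t}` of type `t` is a zero vertex -/
def Zero (K : KeyData M) (n : ℤ) (ρ : S → ℝ) (t : S) (a : ArtinGroup M) : Prop :=
  K.Van n t a ∧ K.d n t a = ρ t

/-- class condition (nonstrict) -/
structure IsClass (K : KeyData M) (U : Finset S) (n : ℤ) (ρ : S → ℝ) (a : ArtinGroup M) :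
    Prop where
  ext : K.Ext U n a
  slack_nonneg : ∀ r ∈ U, 0 ≤ K.slack U n ρ a r

/-- left translate: `G ↦ g G` -/
def translate (K : KeyData M) (g : ArtinGroup M) : KeyData M where
  d n t a := K.d n t (g⁻¹ * a)
  fr := K.fr

end KeyData

variable (M) in
/-- Axioms delivered by ALG + MOD + GAR (block FOLD-L2). -/
structure KeySys extends KeyData M where
  d_nonneg : ∀ n t a, 0 ≤ d n t a
  fr_nonneg : ∀ n r, 0 ≤ fr n r
  /-- vertex functions -/
  inv : ∀ n s t a, s ≠ t → d n t (a * artinGen M s) = d n t a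
  /-- finitely many degrees from above -/
  bdd : ∀ a, ∃ N : ℤ, ∀ n, N < n → ∀ t, d n t a = 0
  /-- discreteness of the values -/
  vals : Set ℝ
  vals_fin : ∀ C : ℝ, (vals ∩ Set.Iic C).Finite
  d_mem : ∀ n t a, d n t a ∈ vals
  /-- (F1): right exactness and `dim coker j ≥ dim N - dim V` -/
  F1 : ∀ (U : Finset S) (n : ℤ) (a : ArtinGroup M), toKeyData.Ext U n a →
    toKeyData.InD U n a → ∀ r ∈ U, toKeyData.Van n r (a * artinGen M r) ∧
      toKeyData.wext U n a r + ∑ t ∈ U.erase r, (- gram M r t) * d n t a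
        ≤ d n r a + d n r (a * artinGen M r)
  /-- (F2): folding -/
  F2 : ∀ (U : Finset S) (n : ℤ) (a : ArtinGroup M), toKeyData.Ext U n a →
    toKeyData.InD U n a → ∀ x ∈ U, ∀ g ∈ PM M U, ∀ t ∈ U,
      d n t (a * artinGen M x * g) ≤ d n t (a * artinGen M x * artinGen M x * g)
  /-- (F3): outside `D` there is an atom which divides every positive path into `D` -/
  F3 : ∀ (U : Finset S) (n : ℤ) (a : ArtinGroup M), toKeyData.Ext U n a →
    ¬ toKeyData.InD U n a → ∃ r ∈ U, ∀ b ∈ PM M U, toKeyData.InD U n (a * b) →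
      ∃ b' ∈ PM M U, b = artinGen M r * b'
  /-- (F4): cofinality of `D` (spherical `T`) -/
  F4 : ∀ (T : Finset S) (n : ℤ) (a : ArtinGroup M), Spherical M T →
    toKeyData.Ext T n a → ∃ p ∈ PM M T, toKeyData.InD T n (a * p)
  /-- (KK): the antipodal case of (Z). `T` spherical connected of rank ≥ 2, all of the apartment
  nonnegative, the two vertices of type `t` in directions `∓ α_x` are zeros; then the vertex
  `ω_x` of the base chamber is a zero. -/
  KK : ∀ (T : Finset S) (n : ℤ) (ρ : S → ℝ) (a : ArtinGroup M), Spherical M T →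
    toKeyData.IsClass T n ρ a → toKeyData.InD T n a →
    (∀ P : Finset S, P ⊆ T → P.Nonempty → P ≠ T → ∃ r ∈ P, ∃ s ∈ T, s ∉ P ∧ Adj M r s) →
    (∀ w ∈ WP M T, ∀ t ∈ T, ρ t ≤ d n t (a * tl M w)) →
    ∀ x ∈ T, ∀ w ∈ WP M T, ∀ t ∈ T, ∀ k : ℝ, 0 < k →
      (∀ s ∈ T, (act M.toCoxeterSystem w⁻¹ (Finsupp.single s 1)) t = - k * gram M x s) →
      d n t (a * tl M w) = ρ t → d n t (a * tl M (M.simple x * w)) = ρ t →
      d n x a = ρ x

/-- one step in the graph of negative vertices of `Δ_U` (pairs `(t, a)` representing the vertex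
`a A_{U-t}`): same chamber, or same vertex -/
inductive Step (P : S → ArtinGroup M → Prop) (U : Finset S) :
    S × ArtinGroup M → S × ArtinGroup M → Prop
  | chamber (s t : S) (a : ArtinGroup M) (hs : s ∈ U) (ht : t ∈ U) (h1 : P s a) (h2 : P t a) :
      Step P U (s, a) (t, a)
  | up (s t : S) (a : ArtinGroup M) (hs : s ∈ U) (ht : t ∈ U) (hst : s ≠ t) (h1 : P t a) :
      Step P U (t, a) (t, a * artinGen M s)
  | down (s t : S) (a : ArtinGroup M) (hs : s ∈ U) (ht : t ∈ U) (hst : s ≠ t) (h1 : P t a) :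
      Step P U (t, a * artinGen M s) (t, a)

/-- OUTPUT of FOLD-L1 -/
def ConnStmt (K : KeyData M) : Prop :=
  ∀ (U : Finset S) (n : ℤ) (ρ : S → ℝ) (a : ArtinGroup M), Spherical M U →
    K.IsClass U n ρ a → ∀ s ∈ U, ∀ t ∈ U, ∀ b ∈ AP M U, ∀ c ∈ AP M U,
    K.Neg n ρ s (a * b) → K.Neg n ρ t (a * c) →
    Relation.ReflTransGen (Step (K.Neg n ρ) U) (s, a * b) (t, a * c)

/-- OUTPUT of FOLD-Z: `U` spherical (connected or not); if there is a negative vertex then every
zero vertex has a negative neighbour. -/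
def ZStmt (K : KeyData M) : Prop :=
  ∀ (U : Finset S) (n : ℤ) (ρ : S → ℝ) (a : ArtinGroup M), Spherical M U →
    K.IsClass U n ρ a →
    ∀ s ∈ U, ∀ t ∈ U, ∀ b ∈ AP M U, ∀ c ∈ AP M U,
    K.Neg n ρ s (a * b) → K.Zero n ρ t (a * c) →
    ∃ q ∈ U.erase t, ∃ e ∈ AP M (U.erase t), K.Neg n ρ q (a * c * e)

/-- the base key system of helper899's (S1): `G` = simple framing object in degree 0 -/
def IsBase (K : KeyData M) (g : ArtinGroup M) : Prop :=
  (∀ n t, K.d n t g = 0) ∧ (∀ r, 0 < K.fr 0 r) ∧ ∀ n r, 0 < n → K.fr n r = 0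

end Vale.Agent.P203.Spec
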